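import Mathlib

/-! P166: the model (Haar matrices, spectra, pressure) and the variational formula. -/

namespace Vale.Agent.P166W95

open MeasureTheory ProbabilityTheory Matrix Filter Topology

/-- The orthogonal group `O(N)`, with the topology of the matrix entries. -/
abbrev Orth (N : ℕ) : Type := Matrix.orthogonalGroup (Fin N) ℝ

/-- `ν` is a Haar measure of total mass one on the Borel σ-algebra of `O(N)`. -/
def IsHaarProb (N : ℕ) (ν : @Measure (Orth N) (borel (Orth N))) : Prop :=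
  letI := borel (Orth N)
  IsProbabilityMeasure ν ∧ ν.IsHaarMeasure

/-- The random matrix `U` is Haar distributed on `O(N)`. -/
def HaarDistributed {Ω : Type*} [MeasurableSpace Ω] (P : Measure Ω) {N : ℕ} (U : Ω → Orth N) :
    Prop :=
  letI := borel (Orth N)
  ∃ ν, IsHaarProb N ν ∧ HasLaw U ν P

/-- The coupling matrix `J = Uᵀ Λ U`, `Λ` the diagonal matrix with entries `a`. -/
def coupling {N : ℕ} (a : Fin N → ℝ) (U : Orth N) : Matrix (Fin N) (Fin N) ℝ :=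
  U.1ᵀ * diagonal a * U.1

/-- The pressure `(1/N) log [2^{-N} ∑_{σ ∈ {-1,1}^N} exp ((β/2) σᵀ J σ)]`. -/
noncomputable def pressure (N : ℕ) (β : ℝ) (J : Matrix (Fin N) (Fin N) ℝ) : ℝ :=
  (1 / (N : ℝ)) * Real.log ((2 : ℝ)⁻¹ ^ N *
    ∑ σ ∈ Fintype.piFinset (fun _ : Fin N => ({-1, 1} : Finset ℝ)),
      Real.exp (β / 2 * (σ ⬝ᵥ (J *ᵥ σ))))

/-- The empirical measure `N⁻¹ ∑_i δ_{a i}`, `N ≥ 1`. -/
noncomputable def empirical {N : ℕ} [NeZero N] (a : Fin N → ℝ) : ProbabilityMeasure ℝ :=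
  ⟨(N : ENNReal)⁻¹ • ∑ i, Measure.dirac (a i),
    ⟨by simp [ENNReal.inv_mul_cancel, NeZero.ne N]⟩⟩

/-- The standing assumptions on the eigenvalues `Λ N i` (`N ≥ 1`): `μ_N → μ` weakly, and the
smallest and the largest eigenvalue converge to the minimum and the maximum of `supp μ`. -/
structure Standing (Λ : (N : ℕ) → Fin N → ℝ) (μ : ProbabilityMeasure ℝ) : Prop where
  weak : Tendsto (fun N : ℕ => empirical (Λ (N + 1))) atTop (𝓝 μ)
  smallest : ∃ a, IsLeast (μ : Measure ℝ).support a ∧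
    Tendsto (fun N : ℕ => ⨅ i, Λ (N + 1) i) atTop (𝓝 a)
  largest : ∃ b, IsGreatest (μ : Measure ℝ).support b ∧
    Tendsto (fun N : ℕ => ⨆ i, Λ (N + 1) i) atTop (𝓝 b)

/-- The Stieltjes transform `G(z) = ∫ (z - x)⁻¹ dμ(x)`. -/
noncomputable def stieltjes (μ : Measure ℝ) (z : ℝ) : ℝ := ∫ x, (z - x)⁻¹ ∂μ

/-- The inverse of `G` to the right of `supp μ`; it is `max supp μ` beyond the range of `G`. -/
noncomputable def stieltjesInv (μ : Measure ℝ) (y : ℝ) : ℝ :=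
  sInf {z : ℝ | sSup μ.support < z ∧ stieltjes μ z ≤ y}

/-- The R-transform `R(y) = G⁻¹(y) - 1/y`, `y > 0`. -/
noncomputable def rTransform (μ : Measure ℝ) (y : ℝ) : ℝ := stieltjesInv μ y - 1 / y

/-- Exponents `0 = m 0 < m 1 < ⋯ < m (k+1) = 1`. -/
def Exponents (k : ℕ) (m : ℕ → ℝ) : Prop :=
  m 0 = 0 ∧ m (k + 1) = 1 ∧ ∀ l ≤ k, m l < m (l + 1)

/-- Paths `0 ≤ r 0 ≤ ⋯ ≤ r k`. -/
def MonoPath (k : ℕ) (r : ℕ → ℝ) : Prop := 0 ≤ r 0 ∧ ∀ l < k, r l ≤ r (l + 1)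

/-- `L(s) = 1 - s - ∑_{l ≤ k} (m_{l+1} - m_l) (q_l - s)⁺`. -/
noncomputable def level (k : ℕ) (m q : ℕ → ℝ) (s : ℝ) : ℝ :=
  1 - s - ∑ l ∈ Finset.range (k + 1), (m (l + 1) - m l) * max (q l - s) 0

/-- The spectral part `(β/2) ∫₀¹ R(β L(s)) ds`. -/
noncomputable def specPart (β : ℝ) (μ : Measure ℝ) (k : ℕ) (m q : ℕ → ℝ) : ℝ :=
  β / 2 * ∫ s in (0 : ℝ)..1, rTransform μ (β * level k m q s)

/-- One step of the Parisi recursion: `x ↦ (1/m) log E exp (m F(x + √v z))`, `z` a standard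
Gaussian. -/
noncomputable def gstep (m v : ℝ) (F : ℝ → ℝ) : ℝ → ℝ := fun x =>
  1 / m * Real.log (∫ z, Real.exp (m * F (x + √v * z)) ∂(gaussianReal 0 1))

/-- The steps `l = k, k - 1, …, 1` of the Parisi recursion, in this order; step `l` has the exponent
`m l` and the variance `r l - r (l - 1)`. -/
noncomputable def cascade (m r : ℕ → ℝ) : ℕ → (ℝ → ℝ) → ℝ → ℝ
  | 0, F => F
  | l + 1, F => cascade m r l (gstep (m (l + 1)) (r (l + 1) - r l) F)

/-- The spin part: `E X(√(r 0) z) - r k / 2`, `X` the Parisi recursion started at `log cosh`. -/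
noncomputable def spinPart (k : ℕ) (m r : ℕ → ℝ) : ℝ :=
  ∫ z, cascade m r k (fun x => Real.log (Real.cosh x)) (√(r 0) * z) ∂(gaussianReal 0 1) - r k / 2

/-- The functional `J(q, r)`. -/
noncomputable def functional (β : ℝ) (μ : Measure ℝ) (k : ℕ) (m q r : ℕ → ℝ) : ℝ :=
  specPart β μ k m q + spinPart k m r +
    1 / 2 * ∑ l ∈ Finset.range (k + 1), (m (l + 1) - m l) * r l * q l

/-- The values of `J(q, r)` over all paths `r`. -/
def innerValues (β : ℝ) (μ : Measure ℝ) (k : ℕ) (m q : ℕ → ℝ) : Set ℝ :=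
  {x | ∃ r, MonoPath k r ∧ x = functional β μ k m q r}

/-- The values of `sup_r J(q, r)` over `k ≥ 0`, exponents `m` and `0 = q 0 ≤ ⋯ ≤ q k < 1`. -/
def outerValues (β : ℝ) (μ : Measure ℝ) : Set ℝ :=
  {y | ∃ k m q, Exponents k m ∧ MonoPath k q ∧ q 0 = 0 ∧ q k < 1 ∧
    y = sSup (innerValues β μ k m q)}

/-- The value `inf_{k, m, q} sup_r J(q, r)` of the variational formula. -/
noncomputable def parisiValue (β : ℝ) (μ : Measure ℝ) : ℝ := sInf (outerValues β μ)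

end Vale.Agent.P166W95
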