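import Vale.Agent.P166W95.Defs
import Vale.Agent.P166.H542.Fin

/-! P166: Haar measure on `O(N)`, the formula as a closed expression, and the limit theorems on an
arbitrary probability space. -/

namespace Vale.Agent.P166W95

open MeasureTheory ProbabilityTheory Matrix Filter Topology

theorem compact_orth (N : ℕ) : CompactSpace (Orth N) :=
  isCompact_iff_compactSpace.1 (P166.H295.isCompact_orth (N := N))

theorem topGroup_orth (N : ℕ) : IsTopologicalGroup (Orth N) where
  continuous_mul := ((continuous_subtype_val.comp continuous_fst).matrix_mul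
    (continuous_subtype_val.comp continuous_snd)).subtype_mk _
  continuous_inv := (continuous_subtype_val.matrix_transpose).subtype_mk _

theorem existsUnique_haar (N : ℕ) : ∃! ν, IsHaarProb N ν := by
  let _ := borel (Orth N)
  have : BorelSpace (Orth N) := ⟨rfl⟩
  have := compact_orth N
  have := topGroup_orth N
  refine ⟨Measure.haarMeasure ⊤, ⟨⟨Measure.haarMeasure_self⟩, inferInstance⟩, ?_⟩
  rintro ν ⟨h1, h2⟩
  have : IsProbabilityMeasure (Measure.haarMeasure (⊤ : TopologicalSpace.PositiveCompacts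
    (Orth N))) := ⟨Measure.haarMeasure_self⟩
  exact Measure.isHaarMeasure_eq_of_isProbabilityMeasure _ _

theorem exists_model : ∃ (Ω : Type) (_ : MeasurableSpace Ω) (P : Measure Ω),
    IsProbabilityMeasure P ∧ ∃ U : (N : ℕ) → Ω → Orth N, ∀ N, HaarDistributed P (U N) := by
  let _ : ∀ N, MeasurableSpace (Orth N) := fun N => borel (Orth N)
  choose ν hν using fun N => (existsUnique_haar N).exists
  have : ∀ N, IsProbabilityMeasure (ν N) := fun N => (hν N).1
  exact ⟨(N : ℕ) → Orth N, inferInstance, Measure.infinitePi ν, inferInstance, fun N x => x N,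
    fun N => ⟨ν N, hν N, (measurePreserving_eval_infinitePi ν N).hasLaw⟩⟩

theorem cascade_eq (m r : ℕ → ℝ) (k : ℕ) (F : ℝ → ℝ) :
    cascade m r k F = P157.Par.cascade m r k F := by
  induction k generalizing F with
  | zero => rfl
  | succ l ih => exact ih _

theorem functional_eq (β : ℝ) (μ : Measure ℝ) (k : ℕ) (m q r : ℕ → ℝ) :
    functional β μ k m q r = P166.Jf β μ k m q r := by
  have h : spinPart k m r = P157.Par.spinPart k m r := by
    rw [spinPart, cascade_eq]
    rfl
  rw [functional, h]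
  rfl

theorem isLUB_inner (β : ℝ) (μ : Measure ℝ) {k : ℕ} {m q : ℕ → ℝ} (hm : Exponents k m)
    (hq : MonoPath k q) (hq1 : q k < 1) :
    IsLUB (innerValues β μ k m q) (sSup (innerValues β μ k m q)) := by
  refine isLUB_csSup ⟨_, fun _ => 0, ⟨le_rfl, fun _ _ => le_rfl⟩, rfl⟩ ?_
  simp only [innerValues, functional_eq]
  exact P166.F.Jf_bdd β μ hm hq hq1

theorem outer_eq (β : ℝ) (μ : Measure ℝ) : outerValues β μ = P166.vals β μ := by
  ext y
  refine exists_congr fun k => exists_congr fun m => exists_congr fun q => ?_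
  refine and_congr_right fun hm => and_congr_right fun hq => and_congr_right fun _ =>
    and_congr_right fun hq1 => ?_
  have h := isLUB_inner β μ hm hq hq1
  have h2 : {y | ∃ r, P157.Par.Path k r ∧ y = P166.Jf β μ k m q r} = innerValues β μ k m q := by
    simp only [innerValues, functional_eq]
    rfl
  rw [h2]
  exact ⟨fun hy => hy ▸ h, fun hy => hy.unique h⟩

theorem standing_iff (Λ : (N : ℕ) → Fin N → ℝ) (μ : ProbabilityMeasure ℝ)
    (hμ : IsCompact (μ : Measure ℝ).support) :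
    Standing Λ μ ↔ P166.Admissible Λ (μ : Measure ℝ) := by
  have hne : (μ : Measure ℝ).support.Nonempty :=
    Measure.nonempty_support (IsProbabilityMeasure.ne_zero _)
  have hw : Tendsto (fun N : ℕ => empirical (Λ (N + 1))) atTop (𝓝 μ) ↔
      ∀ f : BoundedContinuousFunction ℝ ℝ, Tendsto (fun N : ℕ => (1 / (N : ℝ)) * ∑ i, f (Λ N i))
        atTop (𝓝 (∫ x, f x ∂(μ : Measure ℝ))) := by
    rw [ProbabilityMeasure.tendsto_iff_forall_integral_tendsto]
    refine forall_congr' fun f => ?_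
    rw [← tendsto_add_atTop_iff_nat (f := fun N : ℕ => (1 / (N : ℝ)) * ∑ i, f (Λ N i)) 1]
    exact tendsto_congr fun N => P166.H542.integral_emp (Λ (N + 1)) f
  constructor
  · rintro ⟨w, ⟨a, ha, s⟩, ⟨b, hb, l⟩⟩
    exact ⟨hw.1 w, ha.csInf_eq ▸ (tendsto_add_atTop_iff_nat (f := fun N => ⨅ i, Λ N i) 1).1 s,
      hb.csSup_eq ▸ (tendsto_add_atTop_iff_nat (f := fun N => ⨆ i, Λ N i) 1).1 l⟩
  · rintro ⟨w, s, l⟩
    exact ⟨hw.2 w, ⟨_, hμ.isLeast_sInf hne,
      (tendsto_add_atTop_iff_nat (f := fun N => ⨅ i, Λ N i) 1).2 s⟩, ⟨_, hμ.isGreatest_sSup hne,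
      (tendsto_add_atTop_iff_nat (f := fun N => ⨆ i, Λ N i) 1).2 l⟩⟩

theorem stieltjesInv_beyond (μ : Measure ℝ) {y : ℝ}
    (h : ∀ z, sSup μ.support < z → stieltjes μ z ≤ y) : stieltjesInv μ y = sSup μ.support := by
  have h1 : {z : ℝ | sSup μ.support < z ∧ stieltjes μ z ≤ y} = Set.Ioi (sSup μ.support) :=
    Set.ext fun z => ⟨fun hz => hz.1, fun hz => ⟨hz, h z hz⟩⟩
  rw [stieltjesInv, h1, csInf_Ioi]

theorem continuousOn_r (μ : ProbabilityMeasure ℝ) (hμ : IsCompact (μ : Measure ℝ).support) :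
    ContinuousOn (rTransform μ) (Set.Ioi 0) :=
  (P166.F.continuousOn_stInv hμ).sub (continuousOn_const.div continuousOn_id fun _ h => ne_of_gt h)

theorem level_ok (μ : ProbabilityMeasure ℝ) (hμ : IsCompact (μ : Measure ℝ).support) {β : ℝ}
    (hβ : 0 < β) {k : ℕ} {m q : ℕ → ℝ} (hm : Exponents k m) (hq : MonoPath k q) (hq0 : q 0 = 0)
    (hq1 : q k < 1) : (∀ s ∈ Set.Ioo (0 : ℝ) 1, 0 < level k m q s) ∧
      IntervalIntegrable (fun s => rTransform μ (β * level k m q s)) volume 0 1 :=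
  have he : P166.F.Expo k m := ⟨hm.1, hm.2.1, fun l hl => (hm.2.2 l hl).le,
    hm.1 ▸ hm.2.2 0 k.zero_le⟩
  ⟨fun _ hs => P166.F.rt2_lam_pos he hq0 hq.2 hq1.le hs.1 hs.2,
    P166.F.rt2_ii hμ hβ he hq0 hq.2 hq1.le⟩

theorem pressure_bdd {Λ : (N : ℕ) → Fin N → ℝ} {μ : Measure ℝ} (hΛ : P166.Admissible Λ μ)
    (β : ℝ) : ∃ C : NNReal, ∀ N (V : Orth N), ‖pressure N β (coupling (Λ N) V)‖₊ < C := by
  obtain ⟨A, hA⟩ := hΛ.smallest.bddBelow_range
  obtain ⟨B, hB⟩ := hΛ.largest.bddAbove_range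
  have hK : ∀ N i, |Λ N i| ≤ max |A| |B| := fun N i => abs_le_max_abs_abs
    ((hA ⟨N, rfl⟩).trans (ciInf_le (Set.finite_range _).bddBelow i))
    ((le_ciSup (Set.finite_range _).bddAbove i).trans (hB ⟨N, rfl⟩))
  refine ⟨⟨max |A| |B| / 2 * |β| + 1, by positivity⟩, fun N V => ?_⟩
  change |P166.pressure N β (V.1ᵀ * diagonal (Λ N) * V.1)| < max |A| |B| / 2 * |β| + 1
  rcases Nat.eq_zero_or_pos N with rfl | hN
  · rw [P166.H295.pr_N0, abs_zero]
    positivity
  · have h1 := P166.H295.pr_lip hN (P166.H295.spec_conj (Λ N) V (hK N)) β 0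
    rw [P166.H295.pr_zero hN, sub_zero, sub_zero] at h1
    linarith

/-- The limit theorem. -/
theorem limit_thm (μ : ProbabilityMeasure ℝ) (hμ : IsCompact (μ : Measure ℝ).support) {β : ℝ}
    (hβ : 0 < β) :
    IsGLB (outerValues β μ) (parisiValue β μ) ∧
      ∀ Λ : (N : ℕ) → Fin N → ℝ, Standing Λ μ →
      ∀ (Ω : Type*) [MeasurableSpace Ω] (P : Measure Ω) (U : (N : ℕ) → Ω → Orth N),
        (∀ N, HaarDistributed P (U N)) →
        (∀ᵐ ω ∂P, Tendsto (fun N => pressure N β (coupling (Λ N) (U N ω))) atTop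
          (𝓝 (parisiValue β μ))) ∧
        TendstoInMeasure P (fun N ω => pressure N β (coupling (Λ N) (U N ω))) atTop
          (fun _ => parisiValue β μ) ∧
        (∀ r : ENNReal, 1 ≤ r → r ≠ ⊤ → Tendsto (fun N => eLpNorm
          (fun ω => pressure N β (coupling (Λ N) (U N ω)) - parisiValue β μ) r P) atTop (𝓝 0)) ∧
        (∀ N, Integrable (fun ω => pressure N β (coupling (Λ N) (U N ω))) P) ∧
        Tendsto (fun N => ∫ ω, pressure N β (coupling (Λ N) (U N ω)) ∂P) atTop
          (𝓝 (parisiValue β μ)) := by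
  let _ : ∀ N, MeasurableSpace (Orth N) := fun N => borel (Orth N)
  have : ∀ N, BorelSpace (Orth N) := fun N => ⟨rfl⟩
  choose ν hν using fun N => (existsUnique_haar N).exists
  have : ∀ N, IsProbabilityMeasure (ν N) := fun N => (hν N).1
  have : ∀ N, (ν N).IsMulLeftInvariant := fun N => (hν N).2.toIsMulLeftInvariant
  obtain ⟨p, hp⟩ := P166.H542.exists_PP ν
  have hp := hp β hβ
  have hglb : IsGLB (outerValues β μ) (p β μ) := outer_eq β μ ▸ hp.glb μ inferInstance hμ
  have hval : parisiValue β μ = p β μ := hglb.csInf_eq hglb.nonempty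
  rw [hval]
  refine ⟨hglb, fun Λ hΛ Ω _ P U hU => ?_⟩
  have hΛ := (standing_iff Λ μ hμ).1 hΛ
  have hlaw : ∀ N, HasLaw (U N) (ν N) P := fun N => by
    obtain ⟨ν', h1, h2⟩ := hU N
    rwa [(existsUnique_haar N).unique (hν N) h1]
  have : IsProbabilityMeasure P := (hlaw 0).isProbabilityMeasure
  have hc : ∀ N, Continuous fun V : Orth N => pressure N β (coupling (Λ N) V) := fun N =>
    P166.H295.continuous_prU β (Λ N)
  have hW : AEMeasurable (fun ω N => U N ω) P :=
    aemeasurable_pi_lambda _ fun N => (hlaw N).aemeasurable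
  have has : ∀ᵐ ω ∂P, Tendsto (fun N => pressure N β (coupling (Λ N) (U N ω))) atTop
      (𝓝 (p β μ)) := by
    have := Measure.isProbabilityMeasure_map hW
    refine ae_of_ae_map hW (hp.as μ inferInstance hμ Λ hΛ ((N : ℕ) → Orth N)
      (P.map fun ω N => U N ω) (fun N x => x N) (fun N => measurable_pi_apply N) fun N => ?_)
    rw [AEMeasurable.map_map_of_aemeasurable (measurable_pi_apply N).aemeasurable hW]
    exact (hlaw N).map_eq
  have hm : ∀ N, AEStronglyMeasurable (fun ω => pressure N β (coupling (Λ N) (U N ω))) P :=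
    fun N => ((hc N).measurable.comp_aemeasurable (hlaw N).aemeasurable).aestronglyMeasurable
  refine ⟨has, tendstoInMeasure_of_tendsto_ae hm has, ?_, fun N => ?_, ?_⟩
  · intro r hr hr'
    obtain ⟨C, hC⟩ := pressure_bdd hΛ β
    refine tendsto_Lp_finite_of_tendsto_ae hr hr' hm (memLp_const _)
      (unifIntegrable_of hr hr' hm fun ε _ => ⟨C, fun N => ?_⟩) has
    have h1 : {ω | C ≤ ‖pressure N β (coupling (Λ N) (U N ω))‖₊} = ∅ :=
      Set.eq_empty_of_forall_notMem fun ω h => absurd h (not_le.2 (hC N (U N ω)))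
    simp [h1]
  · exact Integrable.of_bound (hm N) _ (Eventually.of_forall fun ω =>
      P166.H295.pr_bdd β (Λ N) (U N ω))
  · refine (hp.mean μ inferInstance hμ Λ hΛ).congr fun N => ?_
    exact ((hlaw N).integral_comp (hc N).measurable.aestronglyMeasurable).symm

end Vale.Agent.P166W95
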